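import Vale.Agent.P240.Alternating

/-!
# P240: non-acyclicity at the prime two for groups with alternating components
-/

namespace Vale.Agent.Results.P240.AlternatingComponents

open Vale.Agent.P240

theorem result :
    ∀ (Ω : Type) [Fintype Ω] [DecidableEq Ω] (ι : Type) [Finite ι] (G : Subgroup (Equiv.Perm Ω))
      (β : Ω → ι),
      (∀ g ∈ G, ∀ x y, β x = β y → β (g x) = β (g y)) →
      (∀ i, ∀ σ : Equiv.Perm Ω, Equiv.Perm.sign σ = 1 → (∀ x, β x ≠ i → σ x = x) → σ ∈ G) →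
      (∀ x, 5 ≤ Nat.card {z // β z = β x}) →
      ∀ r : ℕ, (r = 5 ∨ r = 7) →
      (∀ x, Nat.card {z // β z = β x} = 5 ∨ Nat.card {z // β z = β x} = 7 →
        Nat.card {z // β z = β x} = r) →
      ¬ Acyclic (ZMod r) (Ap 2 G) ∧
        ((∀ x, Nat.card {z // β z = β x} ≠ 5 ∧ Nat.card {z // β z = β x} ≠ 7) →
          ¬ Acyclic ℚ (Ap 2 G)) :=
  fun _ _ _ _ _ G β h1 h2 h3 r h4 h5 => alternating_blocks G β h1 h2 h3 r h4 h5

end Vale.Agent.Results.P240.AlternatingComponents
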