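import Vale.Agent.P240.Blocks

/-!
# P240: non-acyclicity of the poset of elementary abelian subgroups by two primes and a cyclic group
-/

namespace Vale.Agent.Results.P240.TwoPrimeRobinson

open Vale.Agent.P240

theorem result :
    (∀ (p r s : ℕ), p.Prime → r.Prime → s.Prime → r ≠ p → s ≠ p →
      ∀ (G : Type) [Group G] [Finite G] (ι : Type) [Finite ι] (L R : ι → Subgroup G),
        (∀ g i, ∃ j, (L i).map (MulAut.conj g).toMonoidHom = L j) →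
        (∀ i j, i ≠ j → ∀ x ∈ L i, ∀ y ∈ L j, x * y = y * x) →
        (∀ i, R i ≤ L i) → (∀ i j, i ≠ j → ¬ R i ≤ L j) →
        (∀ i, IsPGroup r (R i) ∨ IsPGroup s (R i)) →
        (∀ i, ∀ E ∈ Ap p G, (∀ x ∈ E, ∀ y, y ∈ L i ↔ x * y * x⁻¹ ∈ L i) →
          (∀ ρ ∈ R i, ∀ x ∈ E, ρ * x * ρ⁻¹ ∈ E) → ∀ x ∈ E, ∀ y ∈ L i, x * y = y * x) →
        (∀ x : G, x ^ p = 1 → (∀ i, ∀ y ∈ L i, x * y = y * x) → x = 1) →
        ¬ Acyclic (ZMod r) (Ap p G) ∧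
          ((∀ i, IsPGroup s (R i)) → ∀ (k : Type) [Field k], ¬ Acyclic k (Ap p G))) ∧
    (∀ (p r s : ℕ), p.Prime → r.Prime → s.Prime → r ≠ p → s ≠ p →
      ∀ (Ω : Type) [Finite Ω] (ι : Type) [Finite ι] (G : Subgroup (Equiv.Perm Ω)) (β : Ω → ι),
        (∀ g ∈ G, ∀ x y, β x = β y → β (g x) = β (g y)) →
        (∀ i, (∃ Q ≤ G, BlockMover p β i Q ∧ (IsPGroup r Q ∨ IsPGroup s Q)) ∨
          ((∀ g ∈ G, g ^ p = 1 → ∀ x, β x = i → β (g x) = i) ∧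
            ∃ c ∈ G, BlockMover p β i (Subgroup.zpowers c))) →
        ¬ Acyclic (ZMod r) (Ap p G) ∧
          ((∀ i, (∃ Q ≤ G, BlockMover p β i Q ∧ IsPGroup s Q) ∨
            ((∀ g ∈ G, g ^ p = 1 → ∀ x, β x = i → β (g x) = i) ∧
              ∃ c ∈ G, BlockMover p β i (Subgroup.zpowers c))) → ¬ Acyclic ℚ (Ap p G))) :=
  ⟨fun _ _ _ hp hr hs hrp hsp _ _ _ _ _ L R h1 h2 h3 h4 h5 h6 h7 =>
      Vale.Agent.P240.two_primes L R hp hr hs hrp hsp h1 h2 h3 h4 h5 h6 h7,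
    fun _ _ _ hp hr hs hrp hsp _ _ _ _ G β h1 h2 =>
      haveI := Fact.mk hp; haveI := Fact.mk hr; haveI := Fact.mk hs
      Vale.Agent.P240.blocks hrp hsp G β h1 h2⟩

end Vale.Agent.Results.P240.TwoPrimeRobinson
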